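import Vale.Agent.P232.Scalar.CycTree0

/-!
P232, module D: combination of the generated certificates.
-/

namespace Vale.P232.Chk

noncomputable section

def t1_11 : Tree :=
  .splitT 423581 t1_12 t1_13

theorem t1_11_ok : treeOk 1 ⟨130000, 155140, 0, 9696, 385154, 462009, 0, 500000⟩ t1_11 = true :=
  splitT_ok t1_12_ok t1_13_ok

def t1_10 : Tree :=
  .splitE 9696 t1_11 t1_14

theorem t1_10_ok : treeOk 1 ⟨130000, 155140, 0, 19392, 385154, 462009, 0, 500000⟩ t1_10 = true :=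
  splitE_ok t1_11_ok t1_14_ok

def t1_9 : Tree :=
  .splitT 462009 t1_10 t1_15

theorem t1_9_ok : treeOk 1 ⟨130000, 155140, 0, 19392, 385154, 538865, 0, 500000⟩ t1_9 = true :=
  splitT_ok t1_10_ok t1_15_ok

def t1_8 : Tree :=
  .splitE 19392 t1_9 t1_16

theorem t1_8_ok : treeOk 1 ⟨130000, 155140, 0, 38785, 385154, 538865, 0, 500000⟩ t1_8 = true :=
  splitE_ok t1_9_ok t1_16_ok

def t1_7 : Tree :=
  .splitT 538865 t1_8 t1_17

theorem t1_7_ok : treeOk 1 ⟨130000, 155140, 0, 38785, 385154, 692577, 0, 500000⟩ t1_7 = true :=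
  splitT_ok t1_8_ok t1_17_ok

def t1_6 : Tree :=
  .splitE 38785 t1_7 t1_18

theorem t1_6_ok : treeOk 1 ⟨130000, 155140, 0, 77570, 385154, 692577, 0, 500000⟩ t1_6 = true :=
  splitE_ok t1_7_ok t1_18_ok

def t1_5 : Tree :=
  .splitT 692577 t1_6 t1_19

theorem t1_5_ok : treeOk 1 ⟨130000, 155140, 0, 77570, 385154, 1000000, 0, 500000⟩ t1_5 = true :=
  splitT_ok t1_6_ok t1_19_ok

def t1_4 : Tree :=
  .splitE 77570 t1_5 t1_20

theorem t1_4_ok : treeOk 1 ⟨130000, 155140, 0, 155140, 385154, 1000000, 0, 500000⟩ t1_4 = true :=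
  splitE_ok t1_5_ok t1_20_ok

def t1_29 : Tree :=
  .splitT 423581 t1_30 t1_31

theorem t1_29_ok : treeOk 1 ⟨155140, 190000, 0, 5937, 385154, 462009, 0, 500000⟩ t1_29 = true :=
  splitT_ok t1_30_ok t1_31_ok

def t1_28 : Tree :=
  .splitE 5937 t1_29 t1_32

theorem t1_28_ok : treeOk 1 ⟨155140, 190000, 0, 11875, 385154, 462009, 0, 500000⟩ t1_28 = true :=
  splitE_ok t1_29_ok t1_32_ok

def t1_27 : Tree :=
  .splitT 462009 t1_28 t1_33

theorem t1_27_ok : treeOk 1 ⟨155140, 190000, 0, 11875, 385154, 538865, 0, 500000⟩ t1_27 = true :=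
  splitT_ok t1_28_ok t1_33_ok

def t1_26 : Tree :=
  .splitE 11875 t1_27 t1_34

theorem t1_26_ok : treeOk 1 ⟨155140, 190000, 0, 23750, 385154, 538865, 0, 500000⟩ t1_26 = true :=
  splitE_ok t1_27_ok t1_34_ok

def t1_25 : Tree :=
  .splitE 23750 t1_26 t1_35

theorem t1_25_ok : treeOk 1 ⟨155140, 190000, 0, 47500, 385154, 538865, 0, 500000⟩ t1_25 = true :=
  splitE_ok t1_26_ok t1_35_ok

def t1_24 : Tree :=
  .splitT 538865 t1_25 t1_36

theorem t1_24_ok : treeOk 1 ⟨155140, 190000, 0, 47500, 385154, 692577, 0, 500000⟩ t1_24 = true :=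
  splitT_ok t1_25_ok t1_36_ok

def t1_23 : Tree :=
  .splitE 47500 t1_24 t1_37

theorem t1_23_ok : treeOk 1 ⟨155140, 190000, 0, 95000, 385154, 692577, 0, 500000⟩ t1_23 = true :=
  splitE_ok t1_24_ok t1_37_ok

def t1_22 : Tree :=
  .splitT 692577 t1_23 t1_38

theorem t1_22_ok : treeOk 1 ⟨155140, 190000, 0, 95000, 385154, 1000000, 0, 500000⟩ t1_22 = true :=
  splitT_ok t1_23_ok t1_38_ok

def t1_21 : Tree :=
  .splitE 95000 t1_22 t1_39

theorem t1_21_ok : treeOk 1 ⟨155140, 190000, 0, 190000, 385154, 1000000, 0, 500000⟩ t1_21 = true :=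
  splitE_ok t1_22_ok t1_39_ok

def t1_46 : Tree :=
  .splitE 159155 t1_47 t1_48

theorem t1_46_ok : treeOk 1 ⟨310000, 318310, 0, 318310, 385154, 1000000, 0, 500000⟩ t1_46 = true :=
  splitE_ok t1_47_ok t1_48_ok

theorem root1_0_ok : treeOk 1 ⟨0, 40000, 0, 40000, 385154, 1000000, 0, 500000⟩ t1_1 = true := t1_1_ok

theorem root1_1_ok : treeOk 1 ⟨40000, 100000, 0, 100000, 385154, 1000000, 0, 500000⟩ t1_2 = true := t1_2_ok

theorem root1_2_ok : treeOk 1 ⟨100000, 130000, 0, 130000, 385154, 1000000, 0, 500000⟩ t1_3 = true := t1_3_ok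

theorem root1_3_ok : treeOk 1 ⟨130000, 155140, 0, 155140, 385154, 1000000, 0, 500000⟩ t1_4 = true := t1_4_ok

theorem root1_4_ok : treeOk 1 ⟨155140, 190000, 0, 190000, 385154, 1000000, 0, 500000⟩ t1_21 = true := t1_21_ok

theorem root1_5_ok : treeOk 1 ⟨190000, 240000, 0, 240000, 385154, 1000000, 0, 500000⟩ t1_40 = true := t1_40_ok

theorem root1_6_ok : treeOk 1 ⟨240000, 260000, 0, 260000, 385154, 1000000, 0, 500000⟩ t1_41 = true := t1_41_ok

theorem root1_7_ok : treeOk 1 ⟨260000, 280000, 0, 280000, 385154, 1000000, 0, 500000⟩ t1_42 = true := t1_42_ok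

theorem root1_8_ok : treeOk 1 ⟨280000, 290000, 0, 290000, 385154, 1000000, 0, 500000⟩ t1_43 = true := t1_43_ok

theorem root1_9_ok : treeOk 1 ⟨290000, 300000, 0, 300000, 385154, 1000000, 0, 500000⟩ t1_44 = true := t1_44_ok

theorem root1_10_ok : treeOk 1 ⟨300000, 310000, 0, 310000, 385154, 1000000, 0, 500000⟩ t1_45 = true := t1_45_ok

theorem root1_11_ok : treeOk 1 ⟨310000, 318310, 0, 318310, 385154, 1000000, 0, 500000⟩ t1_46 = true := t1_46_ok

end

end Vale.P232.Chk
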