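import Vale.Agent.P232.Scalar.ThickTree0
import Vale.Agent.P232.Scalar.ThickTree1
import Vale.Agent.P232.Scalar.ThickTree2
import Vale.Agent.P232.Scalar.ThickTree3
import Vale.Agent.P232.Scalar.ThickTree4
import Vale.Agent.P232.Scalar.ThickTree5
import Vale.Agent.P232.Scalar.ThickTree6
import Vale.Agent.P232.Scalar.ThickTree7
import Vale.Agent.P232.Scalar.ThickTree8

/-!
P232, module D: combination of the generated certificates.
-/

namespace Vale.P232.Chk

noncomputable section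

def t2_7 : Tree :=
  .splitT 488731 t2_8 t2_9

theorem t2_7_ok : treeOk 2 ⟨130000, 155140, 0, 38785, 318309, 659154, 0, 500000⟩ t2_7 = true :=
  splitT_ok t2_8_ok t2_9_ok

def t2_6 : Tree :=
  .splitE 38785 t2_7 t2_10

theorem t2_6_ok : treeOk 2 ⟨130000, 155140, 0, 77570, 318309, 659154, 0, 500000⟩ t2_6 = true :=
  splitE_ok t2_7_ok t2_10_ok

def t2_5 : Tree :=
  .splitT 659154 t2_6 t2_11

theorem t2_5_ok : treeOk 2 ⟨130000, 155140, 0, 77570, 318309, 1000000, 0, 500000⟩ t2_5 = true :=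
  splitT_ok t2_6_ok t2_11_ok

def t2_4 : Tree :=
  .splitE 77570 t2_5 t2_12

theorem t2_4_ok : treeOk 2 ⟨130000, 155140, 0, 155140, 318309, 1000000, 0, 500000⟩ t2_4 = true :=
  splitE_ok t2_5_ok t2_12_ok

def t2_16 : Tree :=
  .splitT 488731 t2_17 t2_18

theorem t2_16_ok : treeOk 2 ⟨155140, 190000, 0, 47500, 318309, 659154, 0, 500000⟩ t2_16 = true :=
  splitT_ok t2_17_ok t2_18_ok

def t2_15 : Tree :=
  .splitT 659154 t2_16 t2_19

theorem t2_15_ok : treeOk 2 ⟨155140, 190000, 0, 47500, 318309, 1000000, 0, 500000⟩ t2_15 = true :=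
  splitT_ok t2_16_ok t2_19_ok

def t2_14 : Tree :=
  .splitE 47500 t2_15 t2_20

theorem t2_14_ok : treeOk 2 ⟨155140, 190000, 0, 95000, 318309, 1000000, 0, 500000⟩ t2_14 = true :=
  splitE_ok t2_15_ok t2_20_ok

def t2_13 : Tree :=
  .splitE 95000 t2_14 t2_21

theorem t2_13_ok : treeOk 2 ⟨155140, 190000, 0, 190000, 318309, 1000000, 0, 500000⟩ t2_13 = true :=
  splitE_ok t2_14_ok t2_21_ok

def t2_30 : Tree :=
  .splitT 616548 t2_31 t2_32

theorem t2_30_ok : treeOk 2 ⟨190000, 240000, 0, 30000, 573942, 659154, 0, 500000⟩ t2_30 = true :=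
  splitT_ok t2_31_ok t2_32_ok

def t2_28 : Tree :=
  .splitT 573942 t2_29 t2_30

theorem t2_28_ok : treeOk 2 ⟨190000, 240000, 0, 30000, 488731, 659154, 0, 500000⟩ t2_28 = true :=
  splitT_ok t2_29_ok t2_30_ok

def t2_27 : Tree :=
  .splitE 30000 t2_28 t2_33

theorem t2_27_ok : treeOk 2 ⟨190000, 240000, 0, 60000, 488731, 659154, 0, 500000⟩ t2_27 = true :=
  splitE_ok t2_28_ok t2_33_ok

def t2_25 : Tree :=
  .splitT 488731 t2_26 t2_27

theorem t2_25_ok : treeOk 2 ⟨190000, 240000, 0, 60000, 318309, 659154, 0, 500000⟩ t2_25 = true :=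
  splitT_ok t2_26_ok t2_27_ok

def t2_24 : Tree :=
  .splitT 659154 t2_25 t2_34

theorem t2_24_ok : treeOk 2 ⟨190000, 240000, 0, 60000, 318309, 1000000, 0, 500000⟩ t2_24 = true :=
  splitT_ok t2_25_ok t2_34_ok

def t2_23 : Tree :=
  .splitE 60000 t2_24 t2_35

theorem t2_23_ok : treeOk 2 ⟨190000, 240000, 0, 120000, 318309, 1000000, 0, 500000⟩ t2_23 = true :=
  splitE_ok t2_24_ok t2_35_ok

def t2_22 : Tree :=
  .splitE 120000 t2_23 t2_36

theorem t2_22_ok : treeOk 2 ⟨190000, 240000, 0, 240000, 318309, 1000000, 0, 500000⟩ t2_22 = true :=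
  splitE_ok t2_23_ok t2_36_ok

def t2_45 : Tree :=
  .splitT 616548 t2_46 t2_47

theorem t2_45_ok : treeOk 2 ⟨240000, 260000, 0, 32500, 573942, 659154, 0, 500000⟩ t2_45 = true :=
  splitT_ok t2_46_ok t2_47_ok

def t2_43 : Tree :=
  .splitT 573942 t2_44 t2_45

theorem t2_43_ok : treeOk 2 ⟨240000, 260000, 0, 32500, 488731, 659154, 0, 500000⟩ t2_43 = true :=
  splitT_ok t2_44_ok t2_45_ok

def t2_42 : Tree :=
  .splitE 32500 t2_43 t2_48

theorem t2_42_ok : treeOk 2 ⟨240000, 260000, 0, 65000, 488731, 659154, 0, 500000⟩ t2_42 = true :=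
  splitE_ok t2_43_ok t2_48_ok

def t2_40 : Tree :=
  .splitT 488731 t2_41 t2_42

theorem t2_40_ok : treeOk 2 ⟨240000, 260000, 0, 65000, 318309, 659154, 0, 500000⟩ t2_40 = true :=
  splitT_ok t2_41_ok t2_42_ok

def t2_39 : Tree :=
  .splitT 659154 t2_40 t2_49

theorem t2_39_ok : treeOk 2 ⟨240000, 260000, 0, 65000, 318309, 1000000, 0, 500000⟩ t2_39 = true :=
  splitT_ok t2_40_ok t2_49_ok

def t2_38 : Tree :=
  .splitE 65000 t2_39 t2_50

theorem t2_38_ok : treeOk 2 ⟨240000, 260000, 0, 130000, 318309, 1000000, 0, 500000⟩ t2_38 = true :=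
  splitE_ok t2_39_ok t2_50_ok

def t2_37 : Tree :=
  .splitE 130000 t2_38 t2_51

theorem t2_37_ok : treeOk 2 ⟨240000, 260000, 0, 260000, 318309, 1000000, 0, 500000⟩ t2_37 = true :=
  splitE_ok t2_38_ok t2_51_ok

def t2_60 : Tree :=
  .splitT 616548 t2_61 t2_62

theorem t2_60_ok : treeOk 2 ⟨260000, 280000, 0, 35000, 573942, 659154, 0, 500000⟩ t2_60 = true :=
  splitT_ok t2_61_ok t2_62_ok

def t2_58 : Tree :=
  .splitT 573942 t2_59 t2_60

theorem t2_58_ok : treeOk 2 ⟨260000, 280000, 0, 35000, 488731, 659154, 0, 500000⟩ t2_58 = true :=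
  splitT_ok t2_59_ok t2_60_ok

def t2_57 : Tree :=
  .splitE 35000 t2_58 t2_63

theorem t2_57_ok : treeOk 2 ⟨260000, 280000, 0, 70000, 488731, 659154, 0, 500000⟩ t2_57 = true :=
  splitE_ok t2_58_ok t2_63_ok

def t2_55 : Tree :=
  .splitT 488731 t2_56 t2_57

theorem t2_55_ok : treeOk 2 ⟨260000, 280000, 0, 70000, 318309, 659154, 0, 500000⟩ t2_55 = true :=
  splitT_ok t2_56_ok t2_57_ok

def t2_67 : Tree :=
  .splitT 701759 t2_68 t2_69

theorem t2_67_ok : treeOk 2 ⟨260000, 280000, 0, 35000, 659154, 744365, 0, 500000⟩ t2_67 = true :=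
  splitT_ok t2_68_ok t2_69_ok

def t2_66 : Tree :=
  .splitT 744365 t2_67 t2_70

theorem t2_66_ok : treeOk 2 ⟨260000, 280000, 0, 35000, 659154, 829577, 0, 500000⟩ t2_66 = true :=
  splitT_ok t2_67_ok t2_70_ok

def t2_65 : Tree :=
  .splitE 35000 t2_66 t2_71

theorem t2_65_ok : treeOk 2 ⟨260000, 280000, 0, 70000, 659154, 829577, 0, 500000⟩ t2_65 = true :=
  splitE_ok t2_66_ok t2_71_ok

def t2_64 : Tree :=
  .splitT 829577 t2_65 t2_72

theorem t2_64_ok : treeOk 2 ⟨260000, 280000, 0, 70000, 659154, 1000000, 0, 500000⟩ t2_64 = true :=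
  splitT_ok t2_65_ok t2_72_ok

def t2_54 : Tree :=
  .splitT 659154 t2_55 t2_64

theorem t2_54_ok : treeOk 2 ⟨260000, 280000, 0, 70000, 318309, 1000000, 0, 500000⟩ t2_54 = true :=
  splitT_ok t2_55_ok t2_64_ok

def t2_53 : Tree :=
  .splitE 70000 t2_54 t2_73

theorem t2_53_ok : treeOk 2 ⟨260000, 280000, 0, 140000, 318309, 1000000, 0, 500000⟩ t2_53 = true :=
  splitE_ok t2_54_ok t2_73_ok

def t2_52 : Tree :=
  .splitE 140000 t2_53 t2_74

theorem t2_52_ok : treeOk 2 ⟨260000, 280000, 0, 280000, 318309, 1000000, 0, 500000⟩ t2_52 = true :=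
  splitE_ok t2_53_ok t2_74_ok

def t2_85 : Tree :=
  .splitB 250000 t2_86 t2_87

theorem t2_85_ok : treeOk 2 ⟨280000, 290000, 0, 36250, 616548, 659154, 0, 500000⟩ t2_85 = true :=
  splitB_ok t2_86_ok t2_87_ok

def t2_83 : Tree :=
  .splitT 616548 t2_84 t2_85

theorem t2_83_ok : treeOk 2 ⟨280000, 290000, 0, 36250, 573942, 659154, 0, 500000⟩ t2_83 = true :=
  splitT_ok t2_84_ok t2_85_ok

def t2_81 : Tree :=
  .splitT 573942 t2_82 t2_83

theorem t2_81_ok : treeOk 2 ⟨280000, 290000, 0, 36250, 488731, 659154, 0, 500000⟩ t2_81 = true :=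
  splitT_ok t2_82_ok t2_83_ok

def t2_80 : Tree :=
  .splitE 36250 t2_81 t2_88

theorem t2_80_ok : treeOk 2 ⟨280000, 290000, 0, 72500, 488731, 659154, 0, 500000⟩ t2_80 = true :=
  splitE_ok t2_81_ok t2_88_ok

def t2_78 : Tree :=
  .splitT 488731 t2_79 t2_80

theorem t2_78_ok : treeOk 2 ⟨280000, 290000, 0, 72500, 318309, 659154, 0, 500000⟩ t2_78 = true :=
  splitT_ok t2_79_ok t2_80_ok

def t2_93 : Tree :=
  .splitB 250000 t2_94 t2_95

theorem t2_93_ok : treeOk 2 ⟨280000, 290000, 0, 36250, 659154, 701759, 0, 500000⟩ t2_93 = true :=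
  splitB_ok t2_94_ok t2_95_ok

def t2_92 : Tree :=
  .splitT 701759 t2_93 t2_96

theorem t2_92_ok : treeOk 2 ⟨280000, 290000, 0, 36250, 659154, 744365, 0, 500000⟩ t2_92 = true :=
  splitT_ok t2_93_ok t2_96_ok

def t2_91 : Tree :=
  .splitT 744365 t2_92 t2_97

theorem t2_91_ok : treeOk 2 ⟨280000, 290000, 0, 36250, 659154, 829577, 0, 500000⟩ t2_91 = true :=
  splitT_ok t2_92_ok t2_97_ok

def t2_90 : Tree :=
  .splitT 829577 t2_91 t2_98

theorem t2_90_ok : treeOk 2 ⟨280000, 290000, 0, 36250, 659154, 1000000, 0, 500000⟩ t2_90 = true :=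
  splitT_ok t2_91_ok t2_98_ok

def t2_89 : Tree :=
  .splitE 36250 t2_90 t2_99

theorem t2_89_ok : treeOk 2 ⟨280000, 290000, 0, 72500, 659154, 1000000, 0, 500000⟩ t2_89 = true :=
  splitE_ok t2_90_ok t2_99_ok

def t2_77 : Tree :=
  .splitT 659154 t2_78 t2_89

theorem t2_77_ok : treeOk 2 ⟨280000, 290000, 0, 72500, 318309, 1000000, 0, 500000⟩ t2_77 = true :=
  splitT_ok t2_78_ok t2_89_ok

def t2_76 : Tree :=
  .splitE 72500 t2_77 t2_100

theorem t2_76_ok : treeOk 2 ⟨280000, 290000, 0, 145000, 318309, 1000000, 0, 500000⟩ t2_76 = true :=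
  splitE_ok t2_77_ok t2_100_ok

def t2_75 : Tree :=
  .splitE 145000 t2_76 t2_101

theorem t2_75_ok : treeOk 2 ⟨280000, 290000, 0, 290000, 318309, 1000000, 0, 500000⟩ t2_75 = true :=
  splitE_ok t2_76_ok t2_101_ok

def t2_112 : Tree :=
  .splitB 250000 t2_113 t2_114

theorem t2_112_ok : treeOk 2 ⟨290000, 300000, 0, 37500, 616548, 659154, 0, 500000⟩ t2_112 = true :=
  splitB_ok t2_113_ok t2_114_ok

def t2_110 : Tree :=
  .splitT 616548 t2_111 t2_112

theorem t2_110_ok : treeOk 2 ⟨290000, 300000, 0, 37500, 573942, 659154, 0, 500000⟩ t2_110 = true :=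
  splitT_ok t2_111_ok t2_112_ok

def t2_108 : Tree :=
  .splitT 573942 t2_109 t2_110

theorem t2_108_ok : treeOk 2 ⟨290000, 300000, 0, 37500, 488731, 659154, 0, 500000⟩ t2_108 = true :=
  splitT_ok t2_109_ok t2_110_ok

def t2_107 : Tree :=
  .splitE 37500 t2_108 t2_115

theorem t2_107_ok : treeOk 2 ⟨290000, 300000, 0, 75000, 488731, 659154, 0, 500000⟩ t2_107 = true :=
  splitE_ok t2_108_ok t2_115_ok

def t2_105 : Tree :=
  .splitT 488731 t2_106 t2_107

theorem t2_105_ok : treeOk 2 ⟨290000, 300000, 0, 75000, 318309, 659154, 0, 500000⟩ t2_105 = true :=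
  splitT_ok t2_106_ok t2_107_ok

def t2_120 : Tree :=
  .splitB 250000 t2_121 t2_122

theorem t2_120_ok : treeOk 2 ⟨290000, 300000, 0, 37500, 659154, 701759, 0, 500000⟩ t2_120 = true :=
  splitB_ok t2_121_ok t2_122_ok

def t2_123 : Tree :=
  .splitB 250000 t2_124 t2_125

theorem t2_123_ok : treeOk 2 ⟨290000, 300000, 0, 37500, 701759, 744365, 0, 500000⟩ t2_123 = true :=
  splitB_ok t2_124_ok t2_125_ok

def t2_119 : Tree :=
  .splitT 701759 t2_120 t2_123

theorem t2_119_ok : treeOk 2 ⟨290000, 300000, 0, 37500, 659154, 744365, 0, 500000⟩ t2_119 = true :=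
  splitT_ok t2_120_ok t2_123_ok

def t2_126 : Tree :=
  .splitT 786971 t2_127 t2_128

theorem t2_126_ok : treeOk 2 ⟨290000, 300000, 0, 37500, 744365, 829577, 0, 500000⟩ t2_126 = true :=
  splitT_ok t2_127_ok t2_128_ok

def t2_118 : Tree :=
  .splitT 744365 t2_119 t2_126

theorem t2_118_ok : treeOk 2 ⟨290000, 300000, 0, 37500, 659154, 829577, 0, 500000⟩ t2_118 = true :=
  splitT_ok t2_119_ok t2_126_ok

def t2_117 : Tree :=
  .splitE 37500 t2_118 t2_129

theorem t2_117_ok : treeOk 2 ⟨290000, 300000, 0, 75000, 659154, 829577, 0, 500000⟩ t2_117 = true :=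
  splitE_ok t2_118_ok t2_129_ok

def t2_116 : Tree :=
  .splitT 829577 t2_117 t2_130

theorem t2_116_ok : treeOk 2 ⟨290000, 300000, 0, 75000, 659154, 1000000, 0, 500000⟩ t2_116 = true :=
  splitT_ok t2_117_ok t2_130_ok

def t2_104 : Tree :=
  .splitT 659154 t2_105 t2_116

theorem t2_104_ok : treeOk 2 ⟨290000, 300000, 0, 75000, 318309, 1000000, 0, 500000⟩ t2_104 = true :=
  splitT_ok t2_105_ok t2_116_ok

def t2_103 : Tree :=
  .splitE 75000 t2_104 t2_131

theorem t2_103_ok : treeOk 2 ⟨290000, 300000, 0, 150000, 318309, 1000000, 0, 500000⟩ t2_103 = true :=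
  splitE_ok t2_104_ok t2_131_ok

def t2_102 : Tree :=
  .splitE 150000 t2_103 t2_132

theorem t2_102_ok : treeOk 2 ⟨290000, 300000, 0, 300000, 318309, 1000000, 0, 500000⟩ t2_102 = true :=
  splitE_ok t2_103_ok t2_132_ok

def t2_143 : Tree :=
  .splitB 250000 t2_144 t2_145

theorem t2_143_ok : treeOk 2 ⟨300000, 310000, 0, 38750, 616548, 659154, 0, 500000⟩ t2_143 = true :=
  splitB_ok t2_144_ok t2_145_ok

def t2_141 : Tree :=
  .splitT 616548 t2_142 t2_143

theorem t2_141_ok : treeOk 2 ⟨300000, 310000, 0, 38750, 573942, 659154, 0, 500000⟩ t2_141 = true :=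
  splitT_ok t2_142_ok t2_143_ok

def t2_139 : Tree :=
  .splitT 573942 t2_140 t2_141

theorem t2_139_ok : treeOk 2 ⟨300000, 310000, 0, 38750, 488731, 659154, 0, 500000⟩ t2_139 = true :=
  splitT_ok t2_140_ok t2_141_ok

def t2_138 : Tree :=
  .splitE 38750 t2_139 t2_146

theorem t2_138_ok : treeOk 2 ⟨300000, 310000, 0, 77500, 488731, 659154, 0, 500000⟩ t2_138 = true :=
  splitE_ok t2_139_ok t2_146_ok

def t2_136 : Tree :=
  .splitT 488731 t2_137 t2_138

theorem t2_136_ok : treeOk 2 ⟨300000, 310000, 0, 77500, 318309, 659154, 0, 500000⟩ t2_136 = true :=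
  splitT_ok t2_137_ok t2_138_ok

def t2_153 : Tree :=
  .splitT 680456 t2_154 t2_155

theorem t2_153_ok : treeOk 2 ⟨300000, 310000, 0, 19375, 659154, 701759, 0, 250000⟩ t2_153 = true :=
  splitT_ok t2_154_ok t2_155_ok

def t2_152 : Tree :=
  .splitE 19375 t2_153 t2_156

theorem t2_152_ok : treeOk 2 ⟨300000, 310000, 0, 38750, 659154, 701759, 0, 250000⟩ t2_152 = true :=
  splitE_ok t2_153_ok t2_156_ok

def t2_160 : Tree :=
  .splitT 680456 t2_161 t2_162

theorem t2_160_ok : treeOk 2 ⟨300000, 310000, 0, 9687, 659154, 701759, 250000, 375000⟩ t2_160 = true :=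
  splitT_ok t2_161_ok t2_162_ok

def t2_159 : Tree :=
  .splitE 9687 t2_160 t2_163

theorem t2_159_ok : treeOk 2 ⟨300000, 310000, 0, 19375, 659154, 701759, 250000, 375000⟩ t2_159 = true :=
  splitE_ok t2_160_ok t2_163_ok

def t2_158 : Tree :=
  .splitB 375000 t2_159 t2_164

theorem t2_158_ok : treeOk 2 ⟨300000, 310000, 0, 19375, 659154, 701759, 250000, 500000⟩ t2_158 = true :=
  splitB_ok t2_159_ok t2_164_ok

def t2_157 : Tree :=
  .splitE 19375 t2_158 t2_165

theorem t2_157_ok : treeOk 2 ⟨300000, 310000, 0, 38750, 659154, 701759, 250000, 500000⟩ t2_157 = true :=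
  splitE_ok t2_158_ok t2_165_ok

def t2_151 : Tree :=
  .splitB 250000 t2_152 t2_157

theorem t2_151_ok : treeOk 2 ⟨300000, 310000, 0, 38750, 659154, 701759, 0, 500000⟩ t2_151 = true :=
  splitB_ok t2_152_ok t2_157_ok

def t2_168 : Tree :=
  .splitT 723062 t2_169 t2_170

theorem t2_168_ok : treeOk 2 ⟨300000, 310000, 0, 19375, 701759, 744365, 0, 250000⟩ t2_168 = true :=
  splitT_ok t2_169_ok t2_170_ok

def t2_167 : Tree :=
  .splitE 19375 t2_168 t2_171

theorem t2_167_ok : treeOk 2 ⟨300000, 310000, 0, 38750, 701759, 744365, 0, 250000⟩ t2_167 = true :=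
  splitE_ok t2_168_ok t2_171_ok

def t2_166 : Tree :=
  .splitB 250000 t2_167 t2_172

theorem t2_166_ok : treeOk 2 ⟨300000, 310000, 0, 38750, 701759, 744365, 0, 500000⟩ t2_166 = true :=
  splitB_ok t2_167_ok t2_172_ok

def t2_150 : Tree :=
  .splitT 701759 t2_151 t2_166

theorem t2_150_ok : treeOk 2 ⟨300000, 310000, 0, 38750, 659154, 744365, 0, 500000⟩ t2_150 = true :=
  splitT_ok t2_151_ok t2_166_ok

def t2_176 : Tree :=
  .splitT 765668 t2_177 t2_178

theorem t2_176_ok : treeOk 2 ⟨300000, 310000, 0, 19375, 744365, 786971, 0, 250000⟩ t2_176 = true :=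
  splitT_ok t2_177_ok t2_178_ok

def t2_175 : Tree :=
  .splitE 19375 t2_176 t2_179

theorem t2_175_ok : treeOk 2 ⟨300000, 310000, 0, 38750, 744365, 786971, 0, 250000⟩ t2_175 = true :=
  splitE_ok t2_176_ok t2_179_ok

def t2_174 : Tree :=
  .splitB 250000 t2_175 t2_180

theorem t2_174_ok : treeOk 2 ⟨300000, 310000, 0, 38750, 744365, 786971, 0, 500000⟩ t2_174 = true :=
  splitB_ok t2_175_ok t2_180_ok

def t2_181 : Tree :=
  .splitB 250000 t2_182 t2_183

theorem t2_181_ok : treeOk 2 ⟨300000, 310000, 0, 38750, 786971, 829577, 0, 500000⟩ t2_181 = true :=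
  splitB_ok t2_182_ok t2_183_ok

def t2_173 : Tree :=
  .splitT 786971 t2_174 t2_181

theorem t2_173_ok : treeOk 2 ⟨300000, 310000, 0, 38750, 744365, 829577, 0, 500000⟩ t2_173 = true :=
  splitT_ok t2_174_ok t2_181_ok

def t2_149 : Tree :=
  .splitT 744365 t2_150 t2_173

theorem t2_149_ok : treeOk 2 ⟨300000, 310000, 0, 38750, 659154, 829577, 0, 500000⟩ t2_149 = true :=
  splitT_ok t2_150_ok t2_173_ok

def t2_148 : Tree :=
  .splitE 38750 t2_149 t2_184

theorem t2_148_ok : treeOk 2 ⟨300000, 310000, 0, 77500, 659154, 829577, 0, 500000⟩ t2_148 = true :=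
  splitE_ok t2_149_ok t2_184_ok

def t2_186 : Tree :=
  .splitT 914788 t2_187 t2_188

theorem t2_186_ok : treeOk 2 ⟨300000, 310000, 0, 38750, 829577, 1000000, 0, 500000⟩ t2_186 = true :=
  splitT_ok t2_187_ok t2_188_ok

def t2_185 : Tree :=
  .splitE 38750 t2_186 t2_189

theorem t2_185_ok : treeOk 2 ⟨300000, 310000, 0, 77500, 829577, 1000000, 0, 500000⟩ t2_185 = true :=
  splitE_ok t2_186_ok t2_189_ok

def t2_147 : Tree :=
  .splitT 829577 t2_148 t2_185

theorem t2_147_ok : treeOk 2 ⟨300000, 310000, 0, 77500, 659154, 1000000, 0, 500000⟩ t2_147 = true :=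
  splitT_ok t2_148_ok t2_185_ok

def t2_135 : Tree :=
  .splitT 659154 t2_136 t2_147

theorem t2_135_ok : treeOk 2 ⟨300000, 310000, 0, 77500, 318309, 1000000, 0, 500000⟩ t2_135 = true :=
  splitT_ok t2_136_ok t2_147_ok

def t2_134 : Tree :=
  .splitE 77500 t2_135 t2_190

theorem t2_134_ok : treeOk 2 ⟨300000, 310000, 0, 155000, 318309, 1000000, 0, 500000⟩ t2_134 = true :=
  splitE_ok t2_135_ok t2_190_ok

def t2_192 : Tree :=
  .splitT 488731 t2_193 t2_194

theorem t2_192_ok : treeOk 2 ⟨300000, 310000, 155000, 310000, 318309, 659154, 0, 500000⟩ t2_192 = true :=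
  splitT_ok t2_193_ok t2_194_ok

def t2_191 : Tree :=
  .splitT 659154 t2_192 t2_195

theorem t2_191_ok : treeOk 2 ⟨300000, 310000, 155000, 310000, 318309, 1000000, 0, 500000⟩ t2_191 = true :=
  splitT_ok t2_192_ok t2_195_ok

def t2_133 : Tree :=
  .splitE 155000 t2_134 t2_191

theorem t2_133_ok : treeOk 2 ⟨300000, 310000, 0, 310000, 318309, 1000000, 0, 500000⟩ t2_133 = true :=
  splitE_ok t2_134_ok t2_191_ok

def t2_206 : Tree :=
  .splitB 250000 t2_207 t2_208

theorem t2_206_ok : treeOk 2 ⟨310000, 318310, 0, 39788, 616548, 659154, 0, 500000⟩ t2_206 = true :=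
  splitB_ok t2_207_ok t2_208_ok

def t2_204 : Tree :=
  .splitT 616548 t2_205 t2_206

theorem t2_204_ok : treeOk 2 ⟨310000, 318310, 0, 39788, 573942, 659154, 0, 500000⟩ t2_204 = true :=
  splitT_ok t2_205_ok t2_206_ok

def t2_202 : Tree :=
  .splitT 573942 t2_203 t2_204

theorem t2_202_ok : treeOk 2 ⟨310000, 318310, 0, 39788, 488731, 659154, 0, 500000⟩ t2_202 = true :=
  splitT_ok t2_203_ok t2_204_ok

def t2_201 : Tree :=
  .splitE 39788 t2_202 t2_209

theorem t2_201_ok : treeOk 2 ⟨310000, 318310, 0, 79577, 488731, 659154, 0, 500000⟩ t2_201 = true :=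
  splitE_ok t2_202_ok t2_209_ok

def t2_199 : Tree :=
  .splitT 488731 t2_200 t2_201

theorem t2_199_ok : treeOk 2 ⟨310000, 318310, 0, 79577, 318309, 659154, 0, 500000⟩ t2_199 = true :=
  splitT_ok t2_200_ok t2_201_ok

def t2_216 : Tree :=
  .splitT 680456 t2_217 t2_218

theorem t2_216_ok : treeOk 2 ⟨310000, 318310, 0, 19894, 659154, 701759, 0, 250000⟩ t2_216 = true :=
  splitT_ok t2_217_ok t2_218_ok

def t2_215 : Tree :=
  .splitE 19894 t2_216 t2_219

theorem t2_215_ok : treeOk 2 ⟨310000, 318310, 0, 39788, 659154, 701759, 0, 250000⟩ t2_215 = true :=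
  splitE_ok t2_216_ok t2_219_ok

def t2_223 : Tree :=
  .splitT 680456 t2_224 t2_225

theorem t2_223_ok : treeOk 2 ⟨310000, 318310, 0, 9947, 659154, 701759, 250000, 375000⟩ t2_223 = true :=
  splitT_ok t2_224_ok t2_225_ok

def t2_222 : Tree :=
  .splitE 9947 t2_223 t2_226

theorem t2_222_ok : treeOk 2 ⟨310000, 318310, 0, 19894, 659154, 701759, 250000, 375000⟩ t2_222 = true :=
  splitE_ok t2_223_ok t2_226_ok

def t2_221 : Tree :=
  .splitB 375000 t2_222 t2_227

theorem t2_221_ok : treeOk 2 ⟨310000, 318310, 0, 19894, 659154, 701759, 250000, 500000⟩ t2_221 = true :=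
  splitB_ok t2_222_ok t2_227_ok

def t2_220 : Tree :=
  .splitE 19894 t2_221 t2_228

theorem t2_220_ok : treeOk 2 ⟨310000, 318310, 0, 39788, 659154, 701759, 250000, 500000⟩ t2_220 = true :=
  splitE_ok t2_221_ok t2_228_ok

def t2_214 : Tree :=
  .splitB 250000 t2_215 t2_220

theorem t2_214_ok : treeOk 2 ⟨310000, 318310, 0, 39788, 659154, 701759, 0, 500000⟩ t2_214 = true :=
  splitB_ok t2_215_ok t2_220_ok

def t2_235 : Tree :=
  .splitT 712410 t2_236 t2_237

theorem t2_235_ok : treeOk 2 ⟨310000, 318310, 0, 9947, 701759, 723062, 125000, 250000⟩ t2_235 = true :=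
  splitT_ok t2_236_ok t2_237_ok

def t2_234 : Tree :=
  .splitE 9947 t2_235 t2_238

theorem t2_234_ok : treeOk 2 ⟨310000, 318310, 0, 19894, 701759, 723062, 125000, 250000⟩ t2_234 = true :=
  splitE_ok t2_235_ok t2_238_ok

def t2_232 : Tree :=
  .splitB 125000 t2_233 t2_234

theorem t2_232_ok : treeOk 2 ⟨310000, 318310, 0, 19894, 701759, 723062, 0, 250000⟩ t2_232 = true :=
  splitB_ok t2_233_ok t2_234_ok

def t2_243 : Tree :=
  .splitB 187500 t2_244 t2_245

theorem t2_243_ok : treeOk 2 ⟨310000, 318310, 0, 9947, 723062, 733713, 125000, 250000⟩ t2_243 = true :=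
  splitB_ok t2_244_ok t2_245_ok

def t2_249 : Tree :=
  .splitT 739039 t2_250 t2_251

theorem t2_249_ok : treeOk 2 ⟨310000, 318310, 0, 4973, 733713, 744365, 187500, 250000⟩ t2_249 = true :=
  splitT_ok t2_250_ok t2_251_ok

def t2_248 : Tree :=
  .splitE 4973 t2_249 t2_252

theorem t2_248_ok : treeOk 2 ⟨310000, 318310, 0, 9947, 733713, 744365, 187500, 250000⟩ t2_248 = true :=
  splitE_ok t2_249_ok t2_252_ok

def t2_246 : Tree :=
  .splitB 187500 t2_247 t2_248

theorem t2_246_ok : treeOk 2 ⟨310000, 318310, 0, 9947, 733713, 744365, 125000, 250000⟩ t2_246 = true :=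
  splitB_ok t2_247_ok t2_248_ok

def t2_242 : Tree :=
  .splitT 733713 t2_243 t2_246

theorem t2_242_ok : treeOk 2 ⟨310000, 318310, 0, 9947, 723062, 744365, 125000, 250000⟩ t2_242 = true :=
  splitT_ok t2_243_ok t2_246_ok

def t2_241 : Tree :=
  .splitE 9947 t2_242 t2_253

theorem t2_241_ok : treeOk 2 ⟨310000, 318310, 0, 19894, 723062, 744365, 125000, 250000⟩ t2_241 = true :=
  splitE_ok t2_242_ok t2_253_ok

def t2_239 : Tree :=
  .splitB 125000 t2_240 t2_241

theorem t2_239_ok : treeOk 2 ⟨310000, 318310, 0, 19894, 723062, 744365, 0, 250000⟩ t2_239 = true :=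
  splitB_ok t2_240_ok t2_241_ok

def t2_231 : Tree :=
  .splitT 723062 t2_232 t2_239

theorem t2_231_ok : treeOk 2 ⟨310000, 318310, 0, 19894, 701759, 744365, 0, 250000⟩ t2_231 = true :=
  splitT_ok t2_232_ok t2_239_ok

def t2_230 : Tree :=
  .splitE 19894 t2_231 t2_254

theorem t2_230_ok : treeOk 2 ⟨310000, 318310, 0, 39788, 701759, 744365, 0, 250000⟩ t2_230 = true :=
  splitE_ok t2_231_ok t2_254_ok

def t2_258 : Tree :=
  .splitT 723062 t2_259 t2_260

theorem t2_258_ok : treeOk 2 ⟨310000, 318310, 0, 9947, 701759, 744365, 250000, 375000⟩ t2_258 = true :=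
  splitT_ok t2_259_ok t2_260_ok

def t2_257 : Tree :=
  .splitE 9947 t2_258 t2_261

theorem t2_257_ok : treeOk 2 ⟨310000, 318310, 0, 19894, 701759, 744365, 250000, 375000⟩ t2_257 = true :=
  splitE_ok t2_258_ok t2_261_ok

def t2_256 : Tree :=
  .splitB 375000 t2_257 t2_262

theorem t2_256_ok : treeOk 2 ⟨310000, 318310, 0, 19894, 701759, 744365, 250000, 500000⟩ t2_256 = true :=
  splitB_ok t2_257_ok t2_262_ok

def t2_255 : Tree :=
  .splitE 19894 t2_256 t2_263

theorem t2_255_ok : treeOk 2 ⟨310000, 318310, 0, 39788, 701759, 744365, 250000, 500000⟩ t2_255 = true :=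
  splitE_ok t2_256_ok t2_263_ok

def t2_229 : Tree :=
  .splitB 250000 t2_230 t2_255

theorem t2_229_ok : treeOk 2 ⟨310000, 318310, 0, 39788, 701759, 744365, 0, 500000⟩ t2_229 = true :=
  splitB_ok t2_230_ok t2_255_ok

def t2_213 : Tree :=
  .splitT 701759 t2_214 t2_229

theorem t2_213_ok : treeOk 2 ⟨310000, 318310, 0, 39788, 659154, 744365, 0, 500000⟩ t2_213 = true :=
  splitT_ok t2_214_ok t2_229_ok

def t2_278 : Tree :=
  .splitT 749690 t2_279 t2_280

theorem t2_278_ok : treeOk 2 ⟨310000, 318310, 0, 2486, 744365, 755016, 218750, 250000⟩ t2_278 = true :=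
  splitT_ok t2_279_ok t2_280_ok

def t2_277 : Tree :=
  .splitE 2486 t2_278 t2_281

theorem t2_277_ok : treeOk 2 ⟨310000, 318310, 0, 4973, 744365, 755016, 218750, 250000⟩ t2_277 = true :=
  splitE_ok t2_278_ok t2_281_ok

def t2_275 : Tree :=
  .splitB 218750 t2_276 t2_277

theorem t2_275_ok : treeOk 2 ⟨310000, 318310, 0, 4973, 744365, 755016, 187500, 250000⟩ t2_275 = true :=
  splitB_ok t2_276_ok t2_277_ok

def t2_274 : Tree :=
  .splitE 4973 t2_275 t2_282

theorem t2_274_ok : treeOk 2 ⟨310000, 318310, 0, 9947, 744365, 755016, 187500, 250000⟩ t2_274 = true :=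
  splitE_ok t2_275_ok t2_282_ok

def t2_272 : Tree :=
  .splitB 187500 t2_273 t2_274

theorem t2_272_ok : treeOk 2 ⟨310000, 318310, 0, 9947, 744365, 755016, 125000, 250000⟩ t2_272 = true :=
  splitB_ok t2_273_ok t2_274_ok

def t2_286 : Tree :=
  .splitT 760342 t2_287 t2_288

theorem t2_286_ok : treeOk 2 ⟨310000, 318310, 0, 4973, 755016, 765668, 187500, 250000⟩ t2_286 = true :=
  splitT_ok t2_287_ok t2_288_ok

def t2_285 : Tree :=
  .splitE 4973 t2_286 t2_289

theorem t2_285_ok : treeOk 2 ⟨310000, 318310, 0, 9947, 755016, 765668, 187500, 250000⟩ t2_285 = true :=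
  splitE_ok t2_286_ok t2_289_ok

def t2_283 : Tree :=
  .splitB 187500 t2_284 t2_285

theorem t2_283_ok : treeOk 2 ⟨310000, 318310, 0, 9947, 755016, 765668, 125000, 250000⟩ t2_283 = true :=
  splitB_ok t2_284_ok t2_285_ok

def t2_271 : Tree :=
  .splitT 755016 t2_272 t2_283

theorem t2_271_ok : treeOk 2 ⟨310000, 318310, 0, 9947, 744365, 765668, 125000, 250000⟩ t2_271 = true :=
  splitT_ok t2_272_ok t2_283_ok

def t2_270 : Tree :=
  .splitE 9947 t2_271 t2_290

theorem t2_270_ok : treeOk 2 ⟨310000, 318310, 0, 19894, 744365, 765668, 125000, 250000⟩ t2_270 = true :=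
  splitE_ok t2_271_ok t2_290_ok

def t2_268 : Tree :=
  .splitB 125000 t2_269 t2_270

theorem t2_268_ok : treeOk 2 ⟨310000, 318310, 0, 19894, 744365, 765668, 0, 250000⟩ t2_268 = true :=
  splitB_ok t2_269_ok t2_270_ok

def t2_298 : Tree :=
  .splitT 770993 t2_299 t2_300

theorem t2_298_ok : treeOk 2 ⟨310000, 318310, 0, 4973, 765668, 776319, 187500, 250000⟩ t2_298 = true :=
  splitT_ok t2_299_ok t2_300_ok

def t2_297 : Tree :=
  .splitE 4973 t2_298 t2_301

theorem t2_297_ok : treeOk 2 ⟨310000, 318310, 0, 9947, 765668, 776319, 187500, 250000⟩ t2_297 = true :=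
  splitE_ok t2_298_ok t2_301_ok

def t2_295 : Tree :=
  .splitB 187500 t2_296 t2_297

theorem t2_295_ok : treeOk 2 ⟨310000, 318310, 0, 9947, 765668, 776319, 125000, 250000⟩ t2_295 = true :=
  splitB_ok t2_296_ok t2_297_ok

def t2_305 : Tree :=
  .splitV 314155 t2_306 t2_307

theorem t2_305_ok : treeOk 2 ⟨310000, 318310, 0, 4973, 776319, 786971, 187500, 250000⟩ t2_305 = true :=
  splitV_ok t2_306_ok t2_307_ok

def t2_304 : Tree :=
  .splitE 4973 t2_305 t2_308

theorem t2_304_ok : treeOk 2 ⟨310000, 318310, 0, 9947, 776319, 786971, 187500, 250000⟩ t2_304 = true :=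
  splitE_ok t2_305_ok t2_308_ok

def t2_302 : Tree :=
  .splitB 187500 t2_303 t2_304

theorem t2_302_ok : treeOk 2 ⟨310000, 318310, 0, 9947, 776319, 786971, 125000, 250000⟩ t2_302 = true :=
  splitB_ok t2_303_ok t2_304_ok

def t2_294 : Tree :=
  .splitT 776319 t2_295 t2_302

theorem t2_294_ok : treeOk 2 ⟨310000, 318310, 0, 9947, 765668, 786971, 125000, 250000⟩ t2_294 = true :=
  splitT_ok t2_295_ok t2_302_ok

def t2_293 : Tree :=
  .splitE 9947 t2_294 t2_309

theorem t2_293_ok : treeOk 2 ⟨310000, 318310, 0, 19894, 765668, 786971, 125000, 250000⟩ t2_293 = true :=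
  splitE_ok t2_294_ok t2_309_ok

def t2_291 : Tree :=
  .splitB 125000 t2_292 t2_293

theorem t2_291_ok : treeOk 2 ⟨310000, 318310, 0, 19894, 765668, 786971, 0, 250000⟩ t2_291 = true :=
  splitB_ok t2_292_ok t2_293_ok

def t2_267 : Tree :=
  .splitT 765668 t2_268 t2_291

theorem t2_267_ok : treeOk 2 ⟨310000, 318310, 0, 19894, 744365, 786971, 0, 250000⟩ t2_267 = true :=
  splitT_ok t2_268_ok t2_291_ok

def t2_266 : Tree :=
  .splitE 19894 t2_267 t2_310

theorem t2_266_ok : treeOk 2 ⟨310000, 318310, 0, 39788, 744365, 786971, 0, 250000⟩ t2_266 = true :=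
  splitE_ok t2_267_ok t2_310_ok

def t2_314 : Tree :=
  .splitT 765668 t2_315 t2_316

theorem t2_314_ok : treeOk 2 ⟨310000, 318310, 0, 9947, 744365, 786971, 250000, 375000⟩ t2_314 = true :=
  splitT_ok t2_315_ok t2_316_ok

def t2_313 : Tree :=
  .splitE 9947 t2_314 t2_317

theorem t2_313_ok : treeOk 2 ⟨310000, 318310, 0, 19894, 744365, 786971, 250000, 375000⟩ t2_313 = true :=
  splitE_ok t2_314_ok t2_317_ok

def t2_312 : Tree :=
  .splitB 375000 t2_313 t2_318

theorem t2_312_ok : treeOk 2 ⟨310000, 318310, 0, 19894, 744365, 786971, 250000, 500000⟩ t2_312 = true :=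
  splitB_ok t2_313_ok t2_318_ok

def t2_311 : Tree :=
  .splitE 19894 t2_312 t2_319

theorem t2_311_ok : treeOk 2 ⟨310000, 318310, 0, 39788, 744365, 786971, 250000, 500000⟩ t2_311 = true :=
  splitE_ok t2_312_ok t2_319_ok

def t2_265 : Tree :=
  .splitB 250000 t2_266 t2_311

theorem t2_265_ok : treeOk 2 ⟨310000, 318310, 0, 39788, 744365, 786971, 0, 500000⟩ t2_265 = true :=
  splitB_ok t2_266_ok t2_311_ok

def t2_327 : Tree :=
  .splitB 187500 t2_328 t2_329

theorem t2_327_ok : treeOk 2 ⟨310000, 318310, 0, 9947, 786971, 797622, 125000, 250000⟩ t2_327 = true :=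
  splitB_ok t2_328_ok t2_329_ok

def t2_330 : Tree :=
  .splitV 314155 t2_331 t2_332

theorem t2_330_ok : treeOk 2 ⟨310000, 318310, 0, 9947, 797622, 808274, 125000, 250000⟩ t2_330 = true :=
  splitV_ok t2_331_ok t2_332_ok

def t2_326 : Tree :=
  .splitT 797622 t2_327 t2_330

theorem t2_326_ok : treeOk 2 ⟨310000, 318310, 0, 9947, 786971, 808274, 125000, 250000⟩ t2_326 = true :=
  splitT_ok t2_327_ok t2_330_ok

def t2_325 : Tree :=
  .splitE 9947 t2_326 t2_333

theorem t2_325_ok : treeOk 2 ⟨310000, 318310, 0, 19894, 786971, 808274, 125000, 250000⟩ t2_325 = true :=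
  splitE_ok t2_326_ok t2_333_ok

def t2_323 : Tree :=
  .splitB 125000 t2_324 t2_325

theorem t2_323_ok : treeOk 2 ⟨310000, 318310, 0, 19894, 786971, 808274, 0, 250000⟩ t2_323 = true :=
  splitB_ok t2_324_ok t2_325_ok

def t2_337 : Tree :=
  .splitT 818925 t2_338 t2_339

theorem t2_337_ok : treeOk 2 ⟨310000, 318310, 0, 9947, 808274, 829577, 125000, 250000⟩ t2_337 = true :=
  splitT_ok t2_338_ok t2_339_ok

def t2_336 : Tree :=
  .splitE 9947 t2_337 t2_340

theorem t2_336_ok : treeOk 2 ⟨310000, 318310, 0, 19894, 808274, 829577, 125000, 250000⟩ t2_336 = true :=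
  splitE_ok t2_337_ok t2_340_ok

def t2_334 : Tree :=
  .splitB 125000 t2_335 t2_336

theorem t2_334_ok : treeOk 2 ⟨310000, 318310, 0, 19894, 808274, 829577, 0, 250000⟩ t2_334 = true :=
  splitB_ok t2_335_ok t2_336_ok

def t2_322 : Tree :=
  .splitT 808274 t2_323 t2_334

theorem t2_322_ok : treeOk 2 ⟨310000, 318310, 0, 19894, 786971, 829577, 0, 250000⟩ t2_322 = true :=
  splitT_ok t2_323_ok t2_334_ok

def t2_321 : Tree :=
  .splitE 19894 t2_322 t2_341

theorem t2_321_ok : treeOk 2 ⟨310000, 318310, 0, 39788, 786971, 829577, 0, 250000⟩ t2_321 = true :=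
  splitE_ok t2_322_ok t2_341_ok

def t2_345 : Tree :=
  .splitT 808274 t2_346 t2_347

theorem t2_345_ok : treeOk 2 ⟨310000, 318310, 0, 9947, 786971, 829577, 250000, 375000⟩ t2_345 = true :=
  splitT_ok t2_346_ok t2_347_ok

def t2_344 : Tree :=
  .splitE 9947 t2_345 t2_348

theorem t2_344_ok : treeOk 2 ⟨310000, 318310, 0, 19894, 786971, 829577, 250000, 375000⟩ t2_344 = true :=
  splitE_ok t2_345_ok t2_348_ok

def t2_343 : Tree :=
  .splitB 375000 t2_344 t2_349

theorem t2_343_ok : treeOk 2 ⟨310000, 318310, 0, 19894, 786971, 829577, 250000, 500000⟩ t2_343 = true :=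
  splitB_ok t2_344_ok t2_349_ok

def t2_342 : Tree :=
  .splitE 19894 t2_343 t2_350

theorem t2_342_ok : treeOk 2 ⟨310000, 318310, 0, 39788, 786971, 829577, 250000, 500000⟩ t2_342 = true :=
  splitE_ok t2_343_ok t2_350_ok

def t2_320 : Tree :=
  .splitB 250000 t2_321 t2_342

theorem t2_320_ok : treeOk 2 ⟨310000, 318310, 0, 39788, 786971, 829577, 0, 500000⟩ t2_320 = true :=
  splitB_ok t2_321_ok t2_342_ok

def t2_264 : Tree :=
  .splitT 786971 t2_265 t2_320

theorem t2_264_ok : treeOk 2 ⟨310000, 318310, 0, 39788, 744365, 829577, 0, 500000⟩ t2_264 = true :=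
  splitT_ok t2_265_ok t2_320_ok

def t2_212 : Tree :=
  .splitT 744365 t2_213 t2_264

theorem t2_212_ok : treeOk 2 ⟨310000, 318310, 0, 39788, 659154, 829577, 0, 500000⟩ t2_212 = true :=
  splitT_ok t2_213_ok t2_264_ok

def t2_211 : Tree :=
  .splitE 39788 t2_212 t2_351

theorem t2_211_ok : treeOk 2 ⟨310000, 318310, 0, 79577, 659154, 829577, 0, 500000⟩ t2_211 = true :=
  splitE_ok t2_212_ok t2_351_ok

def t2_357 : Tree :=
  .splitT 850879 t2_358 t2_359

theorem t2_357_ok : treeOk 2 ⟨310000, 318310, 0, 19894, 829577, 872182, 0, 250000⟩ t2_357 = true :=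
  splitT_ok t2_358_ok t2_359_ok

def t2_356 : Tree :=
  .splitE 19894 t2_357 t2_360

theorem t2_356_ok : treeOk 2 ⟨310000, 318310, 0, 39788, 829577, 872182, 0, 250000⟩ t2_356 = true :=
  splitE_ok t2_357_ok t2_360_ok

def t2_355 : Tree :=
  .splitB 250000 t2_356 t2_361

theorem t2_355_ok : treeOk 2 ⟨310000, 318310, 0, 39788, 829577, 872182, 0, 500000⟩ t2_355 = true :=
  splitB_ok t2_356_ok t2_361_ok

def t2_354 : Tree :=
  .splitT 872182 t2_355 t2_362

theorem t2_354_ok : treeOk 2 ⟨310000, 318310, 0, 39788, 829577, 914788, 0, 500000⟩ t2_354 = true :=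
  splitT_ok t2_355_ok t2_362_ok

def t2_369 : Tree :=
  .splitB 125000 t2_370 t2_371

theorem t2_369_ok : treeOk 2 ⟨310000, 318310, 0, 19894, 978697, 1000000, 0, 250000⟩ t2_369 = true :=
  splitB_ok t2_370_ok t2_371_ok

def t2_367 : Tree :=
  .splitT 978697 t2_368 t2_369

theorem t2_367_ok : treeOk 2 ⟨310000, 318310, 0, 19894, 957394, 1000000, 0, 250000⟩ t2_367 = true :=
  splitT_ok t2_368_ok t2_369_ok

def t2_366 : Tree :=
  .splitE 19894 t2_367 t2_372

theorem t2_366_ok : treeOk 2 ⟨310000, 318310, 0, 39788, 957394, 1000000, 0, 250000⟩ t2_366 = true :=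
  splitE_ok t2_367_ok t2_372_ok

def t2_376 : Tree :=
  .splitB 375000 t2_377 t2_378

theorem t2_376_ok : treeOk 2 ⟨310000, 318310, 0, 19894, 978697, 1000000, 250000, 500000⟩ t2_376 = true :=
  splitB_ok t2_377_ok t2_378_ok

def t2_374 : Tree :=
  .splitT 978697 t2_375 t2_376

theorem t2_374_ok : treeOk 2 ⟨310000, 318310, 0, 19894, 957394, 1000000, 250000, 500000⟩ t2_374 = true :=
  splitT_ok t2_375_ok t2_376_ok

def t2_373 : Tree :=
  .splitE 19894 t2_374 t2_379

theorem t2_373_ok : treeOk 2 ⟨310000, 318310, 0, 39788, 957394, 1000000, 250000, 500000⟩ t2_373 = true :=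
  splitE_ok t2_374_ok t2_379_ok

def t2_365 : Tree :=
  .splitB 250000 t2_366 t2_373

theorem t2_365_ok : treeOk 2 ⟨310000, 318310, 0, 39788, 957394, 1000000, 0, 500000⟩ t2_365 = true :=
  splitB_ok t2_366_ok t2_373_ok

def t2_363 : Tree :=
  .splitT 957394 t2_364 t2_365

theorem t2_363_ok : treeOk 2 ⟨310000, 318310, 0, 39788, 914788, 1000000, 0, 500000⟩ t2_363 = true :=
  splitT_ok t2_364_ok t2_365_ok

def t2_353 : Tree :=
  .splitT 914788 t2_354 t2_363

theorem t2_353_ok : treeOk 2 ⟨310000, 318310, 0, 39788, 829577, 1000000, 0, 500000⟩ t2_353 = true :=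
  splitT_ok t2_354_ok t2_363_ok

def t2_352 : Tree :=
  .splitE 39788 t2_353 t2_380

theorem t2_352_ok : treeOk 2 ⟨310000, 318310, 0, 79577, 829577, 1000000, 0, 500000⟩ t2_352 = true :=
  splitE_ok t2_353_ok t2_380_ok

def t2_210 : Tree :=
  .splitT 829577 t2_211 t2_352

theorem t2_210_ok : treeOk 2 ⟨310000, 318310, 0, 79577, 659154, 1000000, 0, 500000⟩ t2_210 = true :=
  splitT_ok t2_211_ok t2_352_ok

def t2_198 : Tree :=
  .splitT 659154 t2_199 t2_210

theorem t2_198_ok : treeOk 2 ⟨310000, 318310, 0, 79577, 318309, 1000000, 0, 500000⟩ t2_198 = true :=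
  splitT_ok t2_199_ok t2_210_ok

def t2_385 : Tree :=
  .splitE 119366 t2_386 t2_387

theorem t2_385_ok : treeOk 2 ⟨310000, 318310, 79577, 159155, 488731, 573942, 0, 500000⟩ t2_385 = true :=
  splitE_ok t2_386_ok t2_387_ok

def t2_384 : Tree :=
  .splitT 573942 t2_385 t2_388

theorem t2_384_ok : treeOk 2 ⟨310000, 318310, 79577, 159155, 488731, 659154, 0, 500000⟩ t2_384 = true :=
  splitT_ok t2_385_ok t2_388_ok

def t2_382 : Tree :=
  .splitT 488731 t2_383 t2_384

theorem t2_382_ok : treeOk 2 ⟨310000, 318310, 79577, 159155, 318309, 659154, 0, 500000⟩ t2_382 = true :=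
  splitT_ok t2_383_ok t2_384_ok

def t2_381 : Tree :=
  .splitT 659154 t2_382 t2_389

theorem t2_381_ok : treeOk 2 ⟨310000, 318310, 79577, 159155, 318309, 1000000, 0, 500000⟩ t2_381 = true :=
  splitT_ok t2_382_ok t2_389_ok

def t2_197 : Tree :=
  .splitE 79577 t2_198 t2_381

theorem t2_197_ok : treeOk 2 ⟨310000, 318310, 0, 159155, 318309, 1000000, 0, 500000⟩ t2_197 = true :=
  splitE_ok t2_198_ok t2_381_ok

def t2_398 : Tree :=
  .splitB 250000 t2_399 t2_400

theorem t2_398_ok : treeOk 2 ⟨310000, 318310, 159155, 198943, 446125, 488731, 0, 500000⟩ t2_398 = true :=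
  splitB_ok t2_399_ok t2_400_ok

def t2_396 : Tree :=
  .splitT 446125 t2_397 t2_398

theorem t2_396_ok : treeOk 2 ⟨310000, 318310, 159155, 198943, 403520, 488731, 0, 500000⟩ t2_396 = true :=
  splitT_ok t2_397_ok t2_398_ok

def t2_395 : Tree :=
  .splitE 198943 t2_396 t2_401

theorem t2_395_ok : treeOk 2 ⟨310000, 318310, 159155, 238732, 403520, 488731, 0, 500000⟩ t2_395 = true :=
  splitE_ok t2_396_ok t2_401_ok

def t2_393 : Tree :=
  .splitT 403520 t2_394 t2_395

theorem t2_393_ok : treeOk 2 ⟨310000, 318310, 159155, 238732, 318309, 488731, 0, 500000⟩ t2_393 = true :=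
  splitT_ok t2_394_ok t2_395_ok

def t2_392 : Tree :=
  .splitE 238732 t2_393 t2_402

theorem t2_392_ok : treeOk 2 ⟨310000, 318310, 159155, 318310, 318309, 488731, 0, 500000⟩ t2_392 = true :=
  splitE_ok t2_393_ok t2_402_ok

def t2_405 : Tree :=
  .splitE 198943 t2_406 t2_407

theorem t2_405_ok : treeOk 2 ⟨310000, 318310, 159155, 238732, 488731, 573942, 0, 500000⟩ t2_405 = true :=
  splitE_ok t2_406_ok t2_407_ok

def t2_404 : Tree :=
  .splitT 573942 t2_405 t2_408

theorem t2_404_ok : treeOk 2 ⟨310000, 318310, 159155, 238732, 488731, 659154, 0, 500000⟩ t2_404 = true :=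
  splitT_ok t2_405_ok t2_408_ok

def t2_403 : Tree :=
  .splitE 238732 t2_404 t2_409

theorem t2_403_ok : treeOk 2 ⟨310000, 318310, 159155, 318310, 488731, 659154, 0, 500000⟩ t2_403 = true :=
  splitE_ok t2_404_ok t2_409_ok

def t2_391 : Tree :=
  .splitT 488731 t2_392 t2_403

theorem t2_391_ok : treeOk 2 ⟨310000, 318310, 159155, 318310, 318309, 659154, 0, 500000⟩ t2_391 = true :=
  splitT_ok t2_392_ok t2_403_ok

def t2_390 : Tree :=
  .splitT 659154 t2_391 t2_410

theorem t2_390_ok : treeOk 2 ⟨310000, 318310, 159155, 318310, 318309, 1000000, 0, 500000⟩ t2_390 = true :=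
  splitT_ok t2_391_ok t2_410_ok

def t2_196 : Tree :=
  .splitE 159155 t2_197 t2_390

theorem t2_196_ok : treeOk 2 ⟨310000, 318310, 0, 318310, 318309, 1000000, 0, 500000⟩ t2_196 = true :=
  splitE_ok t2_197_ok t2_390_ok

theorem root2_0_ok : treeOk 2 ⟨0, 40000, 0, 40000, 318309, 1000000, 0, 500000⟩ t2_1 = true := t2_1_ok

theorem root2_1_ok : treeOk 2 ⟨40000, 100000, 0, 100000, 318309, 1000000, 0, 500000⟩ t2_2 = true := t2_2_ok

theorem root2_2_ok : treeOk 2 ⟨100000, 130000, 0, 130000, 318309, 1000000, 0, 500000⟩ t2_3 = true := t2_3_ok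

theorem root2_3_ok : treeOk 2 ⟨130000, 155140, 0, 155140, 318309, 1000000, 0, 500000⟩ t2_4 = true := t2_4_ok

theorem root2_4_ok : treeOk 2 ⟨155140, 190000, 0, 190000, 318309, 1000000, 0, 500000⟩ t2_13 = true := t2_13_ok

theorem root2_5_ok : treeOk 2 ⟨190000, 240000, 0, 240000, 318309, 1000000, 0, 500000⟩ t2_22 = true := t2_22_ok

theorem root2_6_ok : treeOk 2 ⟨240000, 260000, 0, 260000, 318309, 1000000, 0, 500000⟩ t2_37 = true := t2_37_ok

theorem root2_7_ok : treeOk 2 ⟨260000, 280000, 0, 280000, 318309, 1000000, 0, 500000⟩ t2_52 = true := t2_52_ok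

theorem root2_8_ok : treeOk 2 ⟨280000, 290000, 0, 290000, 318309, 1000000, 0, 500000⟩ t2_75 = true := t2_75_ok

theorem root2_9_ok : treeOk 2 ⟨290000, 300000, 0, 300000, 318309, 1000000, 0, 500000⟩ t2_102 = true := t2_102_ok

theorem root2_10_ok : treeOk 2 ⟨300000, 310000, 0, 310000, 318309, 1000000, 0, 500000⟩ t2_133 = true := t2_133_ok

theorem root2_11_ok : treeOk 2 ⟨310000, 318310, 0, 318310, 318309, 1000000, 0, 500000⟩ t2_196 = true := t2_196_ok

end

end Vale.P232.Chk
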