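import Vale.Agent.P232.Scalar.ThinTree0

/-!
P232, module D: combination of the generated certificates.
-/

namespace Vale.P232.Chk

noncomputable section

def t0_11 : Tree :=
  .splitT 423581 t0_12 t0_13

theorem t0_11_ok : treeOk 0 ⟨130000, 155140, 0, 9696, 385154, 462009, 0, 500000⟩ t0_11 = true :=
  splitT_ok t0_12_ok t0_13_ok

def t0_10 : Tree :=
  .splitE 9696 t0_11 t0_14

theorem t0_10_ok : treeOk 0 ⟨130000, 155140, 0, 19392, 385154, 462009, 0, 500000⟩ t0_10 = true :=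
  splitE_ok t0_11_ok t0_14_ok

def t0_9 : Tree :=
  .splitT 462009 t0_10 t0_15

theorem t0_9_ok : treeOk 0 ⟨130000, 155140, 0, 19392, 385154, 538865, 0, 500000⟩ t0_9 = true :=
  splitT_ok t0_10_ok t0_15_ok

def t0_8 : Tree :=
  .splitE 19392 t0_9 t0_16

theorem t0_8_ok : treeOk 0 ⟨130000, 155140, 0, 38785, 385154, 538865, 0, 500000⟩ t0_8 = true :=
  splitE_ok t0_9_ok t0_16_ok

def t0_7 : Tree :=
  .splitT 538865 t0_8 t0_17

theorem t0_7_ok : treeOk 0 ⟨130000, 155140, 0, 38785, 385154, 692577, 0, 500000⟩ t0_7 = true :=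
  splitT_ok t0_8_ok t0_17_ok

def t0_6 : Tree :=
  .splitE 38785 t0_7 t0_18

theorem t0_6_ok : treeOk 0 ⟨130000, 155140, 0, 77570, 385154, 692577, 0, 500000⟩ t0_6 = true :=
  splitE_ok t0_7_ok t0_18_ok

def t0_5 : Tree :=
  .splitT 692577 t0_6 t0_19

theorem t0_5_ok : treeOk 0 ⟨130000, 155140, 0, 77570, 385154, 1000000, 0, 500000⟩ t0_5 = true :=
  splitT_ok t0_6_ok t0_19_ok

def t0_4 : Tree :=
  .splitE 77570 t0_5 t0_20

theorem t0_4_ok : treeOk 0 ⟨130000, 155140, 0, 155140, 385154, 1000000, 0, 500000⟩ t0_4 = true :=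
  splitE_ok t0_5_ok t0_20_ok

def t0_29 : Tree :=
  .splitT 423581 t0_30 t0_31

theorem t0_29_ok : treeOk 0 ⟨155140, 190000, 0, 5937, 385154, 462009, 0, 500000⟩ t0_29 = true :=
  splitT_ok t0_30_ok t0_31_ok

def t0_28 : Tree :=
  .splitE 5937 t0_29 t0_32

theorem t0_28_ok : treeOk 0 ⟨155140, 190000, 0, 11875, 385154, 462009, 0, 500000⟩ t0_28 = true :=
  splitE_ok t0_29_ok t0_32_ok

def t0_27 : Tree :=
  .splitT 462009 t0_28 t0_33

theorem t0_27_ok : treeOk 0 ⟨155140, 190000, 0, 11875, 385154, 538865, 0, 500000⟩ t0_27 = true :=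
  splitT_ok t0_28_ok t0_33_ok

def t0_26 : Tree :=
  .splitE 11875 t0_27 t0_34

theorem t0_26_ok : treeOk 0 ⟨155140, 190000, 0, 23750, 385154, 538865, 0, 500000⟩ t0_26 = true :=
  splitE_ok t0_27_ok t0_34_ok

def t0_25 : Tree :=
  .splitE 23750 t0_26 t0_35

theorem t0_25_ok : treeOk 0 ⟨155140, 190000, 0, 47500, 385154, 538865, 0, 500000⟩ t0_25 = true :=
  splitE_ok t0_26_ok t0_35_ok

def t0_24 : Tree :=
  .splitT 538865 t0_25 t0_36

theorem t0_24_ok : treeOk 0 ⟨155140, 190000, 0, 47500, 385154, 692577, 0, 500000⟩ t0_24 = true :=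
  splitT_ok t0_25_ok t0_36_ok

def t0_23 : Tree :=
  .splitE 47500 t0_24 t0_37

theorem t0_23_ok : treeOk 0 ⟨155140, 190000, 0, 95000, 385154, 692577, 0, 500000⟩ t0_23 = true :=
  splitE_ok t0_24_ok t0_37_ok

def t0_22 : Tree :=
  .splitT 692577 t0_23 t0_38

theorem t0_22_ok : treeOk 0 ⟨155140, 190000, 0, 95000, 385154, 1000000, 0, 500000⟩ t0_22 = true :=
  splitT_ok t0_23_ok t0_38_ok

def t0_21 : Tree :=
  .splitE 95000 t0_22 t0_39

theorem t0_21_ok : treeOk 0 ⟨155140, 190000, 0, 190000, 385154, 1000000, 0, 500000⟩ t0_21 = true :=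
  splitE_ok t0_22_ok t0_39_ok

theorem root0_0_ok : treeOk 0 ⟨0, 40000, 0, 40000, 385154, 1000000, 0, 500000⟩ t0_1 = true := t0_1_ok

theorem root0_1_ok : treeOk 0 ⟨40000, 100000, 0, 100000, 385154, 1000000, 0, 500000⟩ t0_2 = true := t0_2_ok

theorem root0_2_ok : treeOk 0 ⟨100000, 130000, 0, 130000, 385154, 1000000, 0, 500000⟩ t0_3 = true := t0_3_ok

theorem root0_3_ok : treeOk 0 ⟨130000, 155140, 0, 155140, 385154, 1000000, 0, 500000⟩ t0_4 = true := t0_4_ok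

theorem root0_4_ok : treeOk 0 ⟨155140, 190000, 0, 190000, 385154, 1000000, 0, 500000⟩ t0_21 = true := t0_21_ok

theorem root0_5_ok : treeOk 0 ⟨190000, 240000, 0, 240000, 385154, 1000000, 0, 500000⟩ t0_40 = true := t0_40_ok

theorem root0_6_ok : treeOk 0 ⟨240000, 260000, 0, 260000, 385154, 1000000, 0, 500000⟩ t0_41 = true := t0_41_ok

theorem root0_7_ok : treeOk 0 ⟨260000, 280000, 0, 280000, 385154, 1000000, 0, 500000⟩ t0_42 = true := t0_42_ok

theorem root0_8_ok : treeOk 0 ⟨280000, 290000, 0, 290000, 385154, 1000000, 0, 500000⟩ t0_43 = true := t0_43_ok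

theorem root0_9_ok : treeOk 0 ⟨290000, 300000, 0, 300000, 385154, 1000000, 0, 500000⟩ t0_44 = true := t0_44_ok

theorem root0_10_ok : treeOk 0 ⟨300000, 310000, 0, 310000, 385154, 1000000, 0, 500000⟩ t0_45 = true := t0_45_ok

theorem root0_11_ok : treeOk 0 ⟨310000, 318310, 0, 318310, 385154, 1000000, 0, 500000⟩ t0_46 = true := t0_46_ok

end

end Vale.P232.Chk
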